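import Vale.Agent.N102G.G7

open MeasureTheory Filter Topology Vale.Agent.N102G

/-- (1) Actions of separable abelian topological groups which are continuous in measure:
(a) the structure theorem, (b) the local theorem for connected groups, (c) mixing actions.
(2) Measurable actions of locally compact second countable abelian groups without compact open
subgroups: mixing implies mixing of all orders.
(3) The same for `ℝ^d × ℤ^m`, `d ≥ 1`.
(4) A mixing `ℤ^m`-action which is not mixing of all orders has a bounded function `f ≠ 0` of mean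
zero with a spectral density `0 ≤ ρ ≤ 1`. -/
theorem Vale.Agent.Results.P102.A0Groups.result.{u, v} :
    (∀ (G : Type v) [AddCommGroup G] [TopologicalSpace G] [IsTopologicalAddGroup G]
      [TopologicalSpace.SeparableSpace G] (Ω : Type u) [MeasurableSpace Ω] (μ : Measure Ω)
      [IsProbabilityMeasure μ] (T : G → Ω → Ω), IsAction μ T → ContInMeasure μ T →
      (∀ (k : ℕ) (l : Filter (Fin k → G)), PairIndep μ T l → ¬ JointIndep μ T l →
        ∃ (H : AddSubgroup G) (f : Ω → ℂ), IsOpen (H : Set G) ∧ BesselVector μ T H f) ∧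
      (ConnectedSpace G → ∀ (k : ℕ) (l : Filter (Fin k → G)),
        PairIndep μ T l → JointIndep μ T l) ∧
      (Mixing μ T → ¬ MixingAllOrders μ T → ∃ (H : AddSubgroup G) (f : Ω → ℂ),
        IsCompact (H : Set G) ∧ IsOpen (H : Set G) ∧ BesselVector μ T H f)) ∧
    (∀ (G : Type v) [AddCommGroup G] [TopologicalSpace G] [IsTopologicalAddGroup G]
      [LocallyCompactSpace G] [SecondCountableTopology G] [MeasurableSpace G] [BorelSpace G],
      (∀ H : AddSubgroup G, IsOpen (H : Set G) → ¬ IsCompact (H : Set G)) →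
      ∀ (Ω : Type u) [MeasurableSpace Ω] (μ : Measure Ω) [IsProbabilityMeasure μ]
        (T : G → Ω → Ω), IsAction μ T → Measurable (Function.uncurry T) →
        Mixing μ T → MixingAllOrders μ T) ∧
    (∀ (d m : ℕ), 1 ≤ d → ∀ (Ω : Type u) [MeasurableSpace Ω] (μ : Measure Ω)
      [IsProbabilityMeasure μ] (T : (Fin d → ℝ) × (Fin m → ℤ) → Ω → Ω), IsAction μ T →
      Measurable (Function.uncurry T) → Mixing μ T → MixingAllOrders μ T) ∧
    (∀ (m : ℕ) (Ω : Type u) [MeasurableSpace Ω] (μ : Measure Ω) [IsProbabilityMeasure μ]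
      (T : (Fin m → ℤ) → Ω → Ω), IsAction μ T → Mixing μ T → ¬ MixingAllOrders μ T →
      ∃ (f : Ω → ℂ) (ρ : UnitAddTorus (Fin m) → ℝ), BesselVector μ T ⊥ f ∧ Measurable ρ ∧
        (∀ θ, 0 ≤ ρ θ ∧ ρ θ ≤ 1) ∧ ∀ v : Fin m → ℤ,
          ∫ x, f (T v x) * (starRingEnd ℂ) (f x) ∂μ =
            ∫ θ, UnitAddTorus.mFourier v θ * (ρ θ : ℂ)
              ∂(Measure.pi fun _ => AddCircle.haarAddCircle)) := by
  refine ⟨?_, ?_, ?_, ?_⟩
  · intro G _ _ _ _ Ω _ μ _ T hT hc
    exact ⟨fun k l hp hn => structure_thm hT hc hp hn,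
      fun _ k l hp => joint_of_connected hT hc hp, fun hm hn => structure_mixing hT hc hm hn⟩
  · intro G _ _ _ _ _ _ _ hG Ω _ μ _ T hT hm hmix
    exact allOrders_of_noCompactOpen hG hT (cont_of_measurable hT hm) hmix
  · intro d m hd Ω _ μ _ T hT hm hmix
    exact allOrders_of_noCompactOpen (noCompactOpen_real hd) hT (cont_of_measurable hT hm) hmix
  · intro m Ω _ μ _ T hT hmix hn
    obtain ⟨H, f, h1, -, h2⟩ := structure_mixing hT (contInMeasure_of_discrete hT) hmix hn
    rw [compact_eq_bot H h1] at h2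
    obtain ⟨ρ, h3, h4, h5⟩ := exists_density hT h2
    exact ⟨f, ρ, h2, h3, h4, h5⟩
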